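import Vale.Agent.P236K.St.Coc
import Vale.Agent.P236K.F87.Fin
import Vale.Agent.P236K.K53.All
import Vale.Agent.P251CX.Top

/-!
# P236: the Kervaire invariant problem at the prime three

The localization of orthogonal spectra at the `π_*`-isomorphisms, with the derived smash product,
the mapping cone sequences and the suspension spectrum functor, is one of the pairs `(T, S)`.  In
each such pair the class `b_j` survives in the mod three Adams spectral sequence exactly for
`j = 0, 2, 3`, and in these cases it detects an element of order three.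

The statement uses only the definitions of `P251/T/Axioms`, `P251/St/Base`, `P251CX/Sp`,
`P251CX/St`, `P236Z/Top/St` and `P236K/St/Defs`.
-/

namespace Vale.Agent.Results.P236.AFull

open CategoryTheory MonObj Vale.Agent.P251.St Vale.Agent.P251.St.SHCat Vale.Agent.P236Z.St
  Vale.Agent.P236K.St Vale.Agent.P251CX

theorem result : (∃ (T : SHCat) (S : Susp T), Nonempty (IsSH T S.toSuspData)) ∧
    ∀ (T : SHCat) (_ : Susp T),
    (∃ (H : T.C) (_ : MonObj H) (_ : IsCommMonObj H), IsHF 3 η[H]) ∧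
    ∀ (H : T.C) [MonObj H] [IsCommMonObj H], IsHF 3 η[H] → Nonempty (AdamsTower η[H]) ∧
      (∃ ξ : Hom (sph T 4) (ten H H), ξ ≠ 0 ∧ ∀ g : Hom (sph T 4) (ten H H), ∃ m : ℤ, g = m • ξ) ∧
      ∀ (A : AdamsTower η[H]) (ξ : Hom (sph T 4) (ten H H)), ξ ≠ 0 → ∀ j : ℕ,
        (∃ b, IsB A ξ j b) ∧ ∀ b, IsB A ξ j b →
          comp b (comp (A.d 2) ((hur η[H] (A.X 3))⟦(1 : ℤ)⟧')) = 0 ∧ ¬ A.IsBoundary 2 b ∧
          (Survives A b ↔ j = 0 ∨ j = 2 ∨ j = 3) ∧
          (Survives A b → ∃ θ : Hom (sph T (stem j)) T.one, addOrderOf θ = 3 ∧ Detects A b θ) :=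
  ⟨exists_isSH, (final' (P236K.F87.final_of_stp P236K.Cert.K53.stp)).2⟩

end Vale.Agent.Results.P236.AFull
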